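import Vale.Agent.P067.Alld.Defs

/-!
P067, module A: the groups `loc R t l` and their intersections as groups of patterns.

`Below E b a` says that `b` comes before `a` in all the cyclic orders of the types in `E`; a pattern
matrix for `E` is unitriangular with entries supported on `Below E`, and `patMat` multiplies the
entry at `(a, b)` by `t` when `a < b`.
-/

namespace Vale.Agent.P067.Alld

open Finset Matrix

variable {F : Type} [Field F] {n : ℕ} {R : Type} [CommRing R] [Algebra F R] {t : R}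
variable {E : Finset (Fin n)} {a b k l : Fin n}

/-- `1` when the entry `(a, b)` is above the diagonal. -/
def wrap (a b : Fin n) : ℕ := if a < b then 1 else 0

lemma rot_val (l a : Fin n) :
    (rot l a : ℕ) = if (a : ℕ) ≤ (l : ℕ) then (a : ℕ) + n - l - 1 else (a : ℕ) - l - 1 := by
  have : NeZero n := ⟨fun h => (h ▸ a).elim0⟩
  have hr : rot l a = a - (l + 1) := rfl
  rw [hr, Fin.val_sub, Fin.val_add, Fin.val_one']
  have ha := a.isLt
  rcases Nat.lt_or_ge 1 n with hn | hn
  · rw [Nat.mod_eq_of_lt hn]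
    rcases Nat.lt_or_ge ((l : ℕ) + 1) n with hl | hl
    · rw [Nat.mod_eq_of_lt hl]
      split_ifs with h
      · rw [Nat.mod_eq_of_lt (by omega)]; omega
      · rw [Nat.mod_eq_sub_mod (by omega), Nat.mod_eq_of_lt (by omega)]; omega
    · have hl' : (l : ℕ) + 1 = n := by have := l.isLt; omega
      rw [hl', Nat.mod_self, if_pos (by omega), Nat.sub_zero, Nat.add_mod_left,
        Nat.mod_eq_of_lt ha]
      omega
  · have := l.isLt
    have hn1 : n = 1 := by omega
    subst hn1
    split_ifs <;> omega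

lemma rot_injective (l : Fin n) : Function.Injective (rot l) := fun a b h =>
  have : NeZero n := ⟨fun h => (h ▸ a).elim0⟩
  sub_left_injective (show a - (l + 1) = b - (l + 1) from h)

/-- `rot l` as a permutation. -/
noncomputable def rotEquiv (l : Fin n) : Fin n ≃ Fin n :=
  Equiv.ofBijective (rot l) (Finite.injective_iff_bijective.1 (rot_injective l))

@[simp] lemma rotEquiv_apply (l a : Fin n) : rotEquiv l a = rot l a := rfl

lemma rot_lt_iff (l b a : Fin n) : rot l b < rot l a ↔
    ((b : ℕ) < a ∧ ¬((b : ℕ) ≤ l ∧ (l : ℕ) < a)) ∨ ((a : ℕ) ≤ l ∧ (l : ℕ) < b) := by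
  rw [Fin.lt_def, rot_val, rot_val]
  have := a.isLt; have := b.isLt; have := l.isLt
  split_ifs <;> omega

lemma expo_eq_wrap (h : rot l b ≤ rot l a) : expo l a b = wrap a b := by
  rcases h.lt_or_eq with h | h
  · rw [rot_lt_iff] at h
    simp only [expo, wrap, Fin.le_def, Fin.lt_def]
    split_ifs <;> omega
  · have := rot_injective l h
    subst this
    simp only [expo, wrap, Fin.le_def, Fin.lt_def]
    split_ifs <;> omega

lemma wrap_add (h₁ : rot l b ≤ rot l k) (h₂ : rot l k ≤ rot l a) :
    wrap a k + wrap k b = wrap a b := by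
  rw [Fin.le_def, rot_val, rot_val] at h₁ h₂
  simp only [wrap, Fin.lt_def]
  have := a.isLt; have := b.isLt; have := k.isLt; have := l.isLt
  split_ifs at h₁ h₂ ⊢ <;> omega

/-- `b` comes before `a` in every order of a type in `E`. -/
def Below (E : Finset (Fin n)) (b a : Fin n) : Prop := ∀ l ∈ E, rot l b < rot l a

lemma Below.trans (h₁ : Below E b k) (h₂ : Below E k a) : Below E b a := fun l hl =>
  (h₁ l hl).trans (h₂ l hl)

lemma Below.ne (hE : E.Nonempty) (h : Below E b a) : b ≠ a := by
  obtain ⟨l, hl⟩ := hE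
  exact fun he => (h l hl).ne (he ▸ rfl)

lemma below_singleton : Below {l} b a ↔ rot l b < rot l a := by simp [Below]

/-- The coefficients of a pattern matrix for `E`. -/
def Pat (E : Finset (Fin n)) (c : Matrix (Fin n) (Fin n) F) : Prop :=
  (∀ a, c a a = 1) ∧ ∀ a b, a ≠ b → ¬Below E b a → c a b = 0

variable (R t) in
/-- The matrix over `R` with coefficients `c`. -/
def patMat (c : Matrix (Fin n) (Fin n) F) : Matrix (Fin n) (Fin n) R :=
  fun a b => algebraMap F R (c a b) * t ^ wrap a b

namespace Pat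

variable {c d : Matrix (Fin n) (Fin n) F} {E' : Finset (Fin n)}

lemma mono (hc : Pat E' c) (h : E ⊆ E') : Pat E c :=
  ⟨hc.1, fun a b hab hb => hc.2 a b hab fun h' => hb fun l hl => h' l (h hl)⟩

lemma one : Pat E (1 : Matrix (Fin n) (Fin n) F) :=
  ⟨fun a => by simp, fun a b h _ => by simp [h]⟩

lemma eq_or_below (hc : Pat E c) (h : c a b ≠ 0) : a = b ∨ Below E b a := by
  by_contra h'
  rw [not_or] at h'
  exact h (hc.2 a b h'.1 h'.2)

lemma mul (hE : E.Nonempty) (hc : Pat E c) (hd : Pat E d) : Pat E (c * d) := by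
  refine ⟨fun a => ?_, fun a b hab hb => ?_⟩
  · rw [Matrix.mul_apply, Finset.sum_eq_single a, hc.1, hd.1, one_mul]
    · intro k _ hk
      by_contra h
      obtain ⟨h1, h2⟩ := mul_ne_zero_iff.1 h
      rcases hc.eq_or_below h1 with e | e
      · exact hk e.symm
      · rcases hd.eq_or_below h2 with e' | e'
        · exact hk e'
        · exact (e.trans e').ne hE rfl
    · simp
  · rw [Matrix.mul_apply]
    refine Finset.sum_eq_zero fun k _ => ?_
    by_contra h
    obtain ⟨h1, h2⟩ := mul_ne_zero_iff.1 h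
    rcases hc.eq_or_below h1 with e | e
    · subst e
      rcases hd.eq_or_below h2 with e' | e'
      exacts [hab e', hb e']
    · rcases hd.eq_or_below h2 with e' | e'
      · subst e'
        exact hb e
      · exact hb (e'.trans e)

lemma singleton_of_forall (hE : E.Nonempty) (h : ∀ l ∈ E, Pat {l} c) : Pat E c := by
  obtain ⟨l, hl⟩ := hE
  refine ⟨(h l hl).1, fun a b hab hb => ?_⟩
  simp only [Below, not_forall] at hb
  obtain ⟨l', hl', hb⟩ := hb
  exact (h l' hl').2 a b hab fun hb' => hb (below_singleton.1 hb')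

lemma isLowerTriangular (hc : Pat {l} c) :
    (c.submatrix (rotEquiv l).symm (rotEquiv l).symm).IsLowerTriangular := by
  intro i j hij
  refine hc.2 _ _ ((rotEquiv l).symm.injective.ne (ne_of_lt hij)) ?_
  rw [below_singleton, ← rotEquiv_apply, ← rotEquiv_apply]
  simpa using le_of_lt (OrderDual.toDual_lt_toDual.1 hij)

lemma det (hE : E.Nonempty) (hc : Pat E c) : c.det = 1 := by
  obtain ⟨l, hl⟩ := hE
  have h := (hc.mono (Finset.singleton_subset_iff.2 hl)).isLowerTriangular
  rw [← Matrix.det_submatrix_equiv_self (rotEquiv l).symm c,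
    Matrix.det_of_isLowerTriangular _ h]
  simp [hc.1]

lemma inv (hE : E.Nonempty) (hc : Pat E c) : Pat E c⁻¹ := by
  refine singleton_of_forall hE fun l hl => ?_
  have hu : IsUnit c.det := by rw [hc.det hE]; exact isUnit_one
  have hcl : Pat {l} c := hc.mono (Finset.singleton_subset_iff.2 hl)
  have h := hcl.isLowerTriangular
  let _ : Invertible (c.submatrix (rotEquiv l).symm (rotEquiv l).symm) :=
    Matrix.invertibleOfIsUnitDet _ (by rwa [Matrix.det_submatrix_equiv_self])
  have h' := Matrix.blockTriangular_inv_of_blockTriangular h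
  rw [Matrix.inv_submatrix_equiv] at h'
  have hz : ∀ a b, rot l a < rot l b → c⁻¹ a b = 0 := fun a b hab => by
    have := h' (i := rot l a) (j := rot l b) (OrderDual.toDual_lt_toDual.2 hab)
    simpa [← rotEquiv_apply] using this
  refine ⟨fun a => ?_, fun a b hab hb => hz a b ?_⟩
  · have h1 : (c * c⁻¹) a a = 1 := by rw [Matrix.mul_nonsing_inv _ hu, Matrix.one_apply_eq]
    rw [Matrix.mul_apply, Finset.sum_eq_single a, hcl.1, one_mul] at h1
    · exact h1
    · intro k _ hk
      by_cases h2 : c a k = 0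
      · simp [h2]
      · rcases hcl.eq_or_below h2 with e | e
        · exact absurd e.symm hk
        · rw [hz k a (below_singleton.1 e), mul_zero]
    · simp
  · rw [below_singleton, not_lt] at hb
    exact hb.lt_of_ne ((rot_injective l).ne hab)

lemma patMat_mul (hE : E.Nonempty) (hc : Pat E c) (hd : Pat E d) :
    patMat R t c * patMat R t d = patMat R t (c * d) := by
  obtain ⟨l, hl⟩ := hE
  funext a b
  rw [Matrix.mul_apply, patMat, Matrix.mul_apply, map_sum, Finset.sum_mul]
  refine Finset.sum_congr rfl fun k _ => ?_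
  simp only [patMat]
  by_cases h : c a k = 0 ∨ d k b = 0
  · rcases h with h | h <;> simp [h]
  · rw [not_or] at h
    have e1 : rot l k ≤ rot l a := by
      rcases hc.eq_or_below h.1 with e | e
      exacts [le_of_eq (by rw [e]), (e l hl).le]
    have e2 : rot l b ≤ rot l k := by
      rcases hd.eq_or_below h.2 with e | e
      exacts [le_of_eq (by rw [e]), (e l hl).le]
    rw [map_mul, ← wrap_add e2 e1, pow_add]
    ring

lemma det_patMat (hE : E.Nonempty) (hc : Pat E c) : (patMat R t c).det = 1 := by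
  obtain ⟨l, hl⟩ := hE
  have h := (hc.mono (Finset.singleton_subset_iff.2 hl)).isLowerTriangular
  rw [← Matrix.det_submatrix_equiv_self (rotEquiv l).symm (patMat R t c),
    Matrix.det_of_isLowerTriangular]
  · simp [patMat, hc.1, wrap]
  · intro i j hij
    have := h hij
    simp only [Matrix.submatrix_apply] at this ⊢
    simp [patMat, this]

end Pat

lemma patMat_one : patMat R t (1 : Matrix (Fin n) (Fin n) F) = 1 := by
  funext a b
  rcases eq_or_ne a b with rfl | h
  · simp [patMat, wrap]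
  · simp [patMat, h]

variable (R t) in
/-- A pattern as an element of `SL`. -/
def Pat.toSL {c : Matrix (Fin n) (Fin n) F} (hE : E.Nonempty) (hc : Pat E c) :
    Matrix.SpecialLinearGroup (Fin n) R :=
  ⟨patMat R t c, hc.det_patMat hE⟩

lemma patMat_inj (ht : t ≠ 0) {c d : Matrix (Fin n) (Fin n) F}
    (h : patMat R t c = patMat R t d) : c = d := by
  funext a b
  by_contra hne
  have h' : algebraMap F R (c a b) * t ^ wrap a b = algebraMap F R (d a b) * t ^ wrap a b :=
    congrFun (congrFun h a) b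
  have hu : IsUnit (algebraMap F R (c a b - d a b)) := (Ne.isUnit (sub_ne_zero.2 hne)).map _
  have h0 : t ^ wrap a b = 0 := by
    have : algebraMap F R (c a b - d a b) * t ^ wrap a b = 0 := by
      rw [map_sub, sub_mul, h', sub_self]
    exact hu.mul_right_eq_zero.1 this
  unfold wrap at h0
  split_ifs at h0
  · exact ht (by simpa using h0)
  · have : Subsingleton R := subsingleton_of_zero_eq_one (by simpa using h0.symm)
    exact ht (Subsingleton.elim _ _)

variable (F R t) in
/-- The pattern group of a nonempty set of types. -/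
def patGroup (E : Finset (Fin n)) (hE : E.Nonempty) :
    Subgroup (Matrix.SpecialLinearGroup (Fin n) R) where
  carrier := {g | ∃ c : Matrix (Fin n) (Fin n) F, Pat E c ∧ g.1 = patMat R t c}
  one_mem' := ⟨1, Pat.one, by simp [patMat_one]⟩
  mul_mem' := by
    rintro g h ⟨c, hc, hg⟩ ⟨d, hd, hh⟩
    exact ⟨c * d, hc.mul hE hd, by
      rw [Matrix.SpecialLinearGroup.coe_mul, hg, hh, hc.patMat_mul hE hd]⟩
  inv_mem' := by
    rintro g ⟨c, hc, hg⟩
    refine ⟨c⁻¹, hc.inv hE, ?_⟩
    have hu : IsUnit c.det := by rw [hc.det hE]; exact isUnit_one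
    have h : g * (hc.inv hE).toSL R t hE = 1 := Subtype.ext (by
      show g.1 * patMat R t c⁻¹ = _
      rw [hg, hc.patMat_mul hE (hc.inv hE), Matrix.mul_nonsing_inv _ hu, patMat_one]
      rfl)
    rw [inv_eq_of_mul_eq_one_right (a := g) (b := (hc.inv hE).toSL R t hE) h]
    rfl

lemma mem_patGroup {hE : E.Nonempty} {g : Matrix.SpecialLinearGroup (Fin n) R} :
    g ∈ patGroup F R t E hE ↔ ∃ c : Matrix (Fin n) (Fin n) F, Pat E c ∧ g.1 = patMat R t c :=
  Iff.rfl

lemma pat_of_lowerSet {u : Matrix (Fin n) (Fin n) F} (hu : u ∈ lowerSet F n) (l : Fin n) :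
    Pat {l} (u.submatrix (rot l) (rot l)) :=
  ⟨fun _ => hu.1 _, fun a b hab hb => hu.2 _ _ (by
    rw [below_singleton, not_lt] at hb
    exact hb.lt_of_ne ((rot_injective l).ne hab))⟩

lemma twist_eq_patMat {u : Matrix (Fin n) (Fin n) F} (hu : u ∈ lowerSet F n) (l : Fin n) :
    twist R t l u = patMat R t (u.submatrix (rot l) (rot l)) := by
  funext a b
  simp only [twist, patMat, Matrix.submatrix_apply]
  rcases le_or_gt (rot l b) (rot l a) with h | h
  · rw [expo_eq_wrap h]
  · simp [hu.2 _ _ h]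

lemma lowerSet_of_pat {c : Matrix (Fin n) (Fin n) F} (hc : Pat {l} c) :
    ∃ u ∈ lowerSet F n, u.submatrix (rot l) (rot l) = c := by
  refine ⟨c.submatrix (rotEquiv l).symm (rotEquiv l).symm,
    ⟨fun a => hc.1 _, fun a b hab => hc.isLowerTriangular (OrderDual.toDual_lt_toDual.2 hab)⟩, ?_⟩
  funext a b
  simp [← rotEquiv_apply]

lemma loc_eq_patGroup (l : Fin n) :
    loc F R t l = patGroup F R t {l} (Finset.singleton_nonempty l) := by
  refine le_antisymm ((Subgroup.closure_le _).2 ?_) fun g hg => Subgroup.subset_closure ?_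
  · rintro g ⟨u, hu, hg⟩
    exact ⟨_, pat_of_lowerSet hu l, hg.trans (twist_eq_patMat hu l)⟩
  · obtain ⟨c, hc, hg⟩ := hg
    obtain ⟨u, hu, rfl⟩ := lowerSet_of_pat hc
    exact ⟨u, hu, hg.trans (twist_eq_patMat hu l).symm⟩

lemma mem_loc_iff {g : Matrix.SpecialLinearGroup (Fin n) R} :
    g ∈ loc F R t l ↔ ∃ c : Matrix (Fin n) (Fin n) F, Pat {l} c ∧ g.1 = patMat R t c := by
  rw [loc_eq_patGroup]; rfl

lemma mem_loc_iff_twist {g : Matrix.SpecialLinearGroup (Fin n) R} :
    g ∈ loc F R t l ↔ ∃ u ∈ lowerSet F n, g.1 = twist R t l u := by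
  refine ⟨fun hg => ?_, fun hg => Subgroup.subset_closure hg⟩
  obtain ⟨c, hc, hg⟩ := mem_loc_iff.1 hg
  obtain ⟨u, hu, rfl⟩ := lowerSet_of_pat hc
  exact ⟨u, hu, hg.trans (twist_eq_patMat hu l).symm⟩

lemma loc_le_Gam (l : Fin n) : loc F R t l ≤ Gam F n R t :=
  le_iSup (fun l => loc F R t l) l

lemma Pat.toSL_mem_Gam {c : Matrix (Fin n) (Fin n) F} (hE : E.Nonempty) (hc : Pat E c) :
    hc.toSL R t hE ∈ Gam F n R t :=
  loc_le_Gam hE.choose
    (mem_loc_iff.2 ⟨c, hc.mono (Finset.singleton_subset_iff.2 hE.choose_spec), rfl⟩)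

lemma mem_inter {G : Type} [Group G] {H : Fin n → Subgroup G} {x : G} :
    x ∈ inter H E ↔ ∀ l ∈ E, x ∈ H l := by
  simp [inter, Subgroup.mem_iInf]

/-- Intersections of the types in `E` are pattern groups. -/
theorem mem_inter_hyp_iff (ht : t ≠ 0) (hE : E.Nonempty) (x : Gam F n R t) :
    x ∈ inter (hyp F n R t) E ↔ ∃ c : Matrix (Fin n) (Fin n) F, Pat E c ∧ x.1.1 = patMat R t c := by
  simp only [mem_inter, hyp, Subgroup.mem_subgroupOf, mem_loc_iff]
  refine ⟨fun h => ?_, fun ⟨c, hc, hx⟩ l hl => ⟨c, hc.mono (Finset.singleton_subset_iff.2 hl), hx⟩⟩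
  obtain ⟨l₀, hl₀⟩ := id hE
  obtain ⟨c, -, hx⟩ := h l₀ hl₀
  refine ⟨c, Pat.singleton_of_forall hE fun l hl => ?_, hx⟩
  obtain ⟨d, hd, hx'⟩ := h l hl
  rwa [patMat_inj ht (hx.symm.trans hx')]

lemma patMat_map {R' : Type} [CommRing R'] [Algebra F R'] (φ : R →ₐ[F] R')
    (c : Matrix (Fin n) (Fin n) F) :
    (patMat R t c).map φ = patMat R' (φ t) c := by
  funext a b
  simp [patMat]

/-- An algebra map carries the groups of types to the groups of types. -/
theorem map_loc {R' : Type} [CommRing R'] [Algebra F R'] (φ : R →ₐ[F] R') {t' : R'}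
    (h : φ t = t') (l : Fin n) :
    (loc F R t l).map (Matrix.SpecialLinearGroup.map φ.toRingHom) = loc F R' t' l := by
  subst h
  ext g
  simp only [Subgroup.mem_map, mem_loc_iff]
  constructor
  · rintro ⟨x, ⟨c, hc, hx⟩, rfl⟩
    exact ⟨c, hc, (congrArg (fun M => M.map φ) hx).trans (patMat_map φ c)⟩
  · rintro ⟨c, hc, hg⟩
    exact ⟨hc.toSL R t (Finset.singleton_nonempty l), ⟨c, hc, rfl⟩,
      Subtype.ext ((patMat_map φ c).trans hg.symm)⟩

/-- An algebra map carries `Gam` onto `Gam`. -/
theorem map_Gam {R' : Type} [CommRing R'] [Algebra F R'] (φ : R →ₐ[F] R') {t' : R'}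
    (h : φ t = t') :
    (Gam F n R t).map (Matrix.SpecialLinearGroup.map φ.toRingHom) = Gam F n R' t' := by
  simp only [Gam, Subgroup.map_iSup, map_loc φ h]

lemma finite_loc [Finite F] (l : Fin n) : Finite (loc F R t l) := by
  have : (loc F R t l : Set (Matrix.SpecialLinearGroup (Fin n) R)).Finite := by
    refine Set.Finite.subset (Set.Finite.of_finite_image (f := Subtype.val) ?_
      Subtype.val_injective.injOn) subset_rfl
    refine (Set.finite_range (patMat R t (F := F) (n := n))).subset ?_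
    rintro _ ⟨g, hg, rfl⟩
    obtain ⟨c, -, hc⟩ := mem_loc_iff.1 hg
    exact ⟨c, hc.symm⟩
  exact this.to_subtype

end Vale.Agent.P067.Alld
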