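import Vale.Agent.P067.Alld.A.Roots
import Vale.Agent.P067.Alld.Stmt

/-!
P067, module A: `Γ ⊆ SL_n(F[t])` consists of the matrices that are lower unitriangular mod `t`
(Euclid's algorithm on the last column).
-/

namespace Vale.Agent.P067.Alld

open Finset Matrix Polynomial

variable {F : Type} [Field F] {n : ℕ}

/-- Lower unitriangular mod `t`. -/
def LowMod (g : Matrix.SpecialLinearGroup (Fin n) F[X]) : Prop :=
  (∀ a, (g a a).coeff 0 = 1) ∧ ∀ a b, a < b → (g a b).coeff 0 = 0

/-- The last index. -/
def lastIdx (hn : 0 < n) : Fin n := ⟨n - 1, by omega⟩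

lemma below_lastIdx (hn : 0 < n) {a b : Fin n} : Below {lastIdx hn} b a ↔ b < a := by
  rw [below_singleton, rot_lt_iff, Fin.lt_def]
  have := a.isLt; have := b.isLt
  simp only [lastIdx]
  omega

lemma pat_lastIdx_iff (hn : 0 < n) {c : Matrix (Fin n) (Fin n) F} :
    Pat {lastIdx hn} c ↔ (∀ a, c a a = 1) ∧ ∀ a b, a < b → c a b = 0 := by
  simp only [Pat, below_lastIdx]
  exact and_congr_right fun _ => ⟨fun h a b hab => h a b hab.ne hab.not_gt,
    fun h a b hab hb => h a b (hab.lt_or_gt.resolve_right hb)⟩

variable (F) in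
/-- The matrices that are lower unitriangular mod `t`, as a subgroup. -/
noncomputable def lowModGroup (hn : 0 < n) :
    Subgroup (Matrix.SpecialLinearGroup (Fin n) F[X]) :=
  (patGroup F F (0 : F) {lastIdx hn} (singleton_nonempty _)).comap
    (Matrix.SpecialLinearGroup.map (Polynomial.aeval (0 : F)).toRingHom)

lemma mem_lowModGroup (hn : 0 < n) {g : Matrix.SpecialLinearGroup (Fin n) F[X]} :
    g ∈ lowModGroup F hn ↔ LowMod g := by
  have hco : ∀ f : F[X], Polynomial.aeval (0 : F) f = f.coeff 0 := fun f => by
    simp [Polynomial.coeff_zero_eq_eval_zero]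
  simp only [lowModGroup, Subgroup.mem_comap, mem_patGroup, pat_lastIdx_iff]
  constructor
  · rintro ⟨c, ⟨hd, hu⟩, hc⟩
    have h : ∀ a b, (g a b).coeff 0 = c a b * (0 : F) ^ wrap a b := fun a b => by
      rw [← hco]; exact congrFun (congrFun hc a) b
    exact ⟨fun a => by simp [h, hd, wrap], fun a b hab => by simp [h, hu a b hab]⟩
  · rintro ⟨hd, hu⟩
    refine ⟨fun a b => (g a b).coeff 0, ⟨hd, hu⟩, ?_⟩
    funext a b
    rw [Matrix.SpecialLinearGroup.map_apply_coe]
    simp only [RingHom.mapMatrix_apply, Matrix.map_apply, AlgHom.toRingHom_eq_coe, RingHom.coe_coe,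
      hco, patMat, wrap]
    split_ifs with h
    · simp [hu a b h]
    · simp

lemma Gam_le_lowModGroup (hn : 0 < n) : Gam F n F[X] X ≤ lowModGroup F hn := by
  refine iSup_le fun l g hg => Subgroup.mem_comap.2 ?_
  obtain ⟨c, hc, hg⟩ := mem_loc_iff.1 hg
  refine ⟨fun a b => if a < b then 0 else c a b, (pat_lastIdx_iff hn).2 ⟨fun a => by simp [hc.1],
    fun a b h => by simp [h]⟩, ?_⟩
  rw [Matrix.SpecialLinearGroup.map_apply_coe, hg, RingHom.mapMatrix_apply]
  refine (patMat_map (t := (X : F[X])) (Polynomial.aeval (0 : F) : F[X] →ₐ[F] F) c).trans ?_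
  funext a b
  simp only [patMat, Polynomial.aeval_X, wrap]
  split_ifs <;> simp

lemma elem_lower_mem (hn : 3 ≤ n) {a b : Fin n} (hab : a ≠ b) (h : b < a) (f : F[X]) :
    elem hab f ∈ Gam F n F[X] X := by
  induction f using Polynomial.induction_on' with
  | add p q hp hq => exact elem_add hab p q ▸ Subgroup.mul_mem _ hp hq
  | monomial k c =>
    rw [← Polynomial.C_mul_X_pow_eq_monomial]
    exact elem_mem_Gam hn hab k (Or.inl h) c

lemma elem_X_mul_mem (hn : 3 ≤ n) {a b : Fin n} (hab : a ≠ b) (f : F[X]) :
    elem hab (X * f) ∈ Gam F n F[X] X := by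
  induction f using Polynomial.induction_on' with
  | add p q hp hq =>
    rw [mul_add, elem_add]
    exact Subgroup.mul_mem _ hp hq
  | monomial k c =>
    rw [← Polynomial.C_mul_X_pow_eq_monomial, ← mul_assoc, Polynomial.X_mul_C, mul_assoc,
      ← pow_succ']
    exact elem_mem_Gam hn hab (k + 1) (Or.inr (by omega)) c

lemma elem_mul_apply {R : Type} [CommRing R] {a b : Fin n} (hab : a ≠ b) (x : R)
    (g : Matrix.SpecialLinearGroup (Fin n) R) (i j : Fin n) :
    (elem hab x * g) i j = g i j + if i = a then x * g b j else 0 := by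
  rw [Matrix.SpecialLinearGroup.coe_mul, Matrix.SpecialLinearGroup.transvection_coe, add_mul,
    one_mul, Matrix.add_apply]
  split_ifs with h
  · subst h; rw [Matrix.single_mul_apply_same]
  · rw [Matrix.single_mul_apply_of_ne _ _ _ _ _ h]

lemma mul_elem_apply {R : Type} [CommRing R] {a b : Fin n} (hab : a ≠ b) (x : R)
    (g : Matrix.SpecialLinearGroup (Fin n) R) (i j : Fin n) :
    (g * elem hab x) i j = g i j + if j = b then g i a * x else 0 := by
  rw [Matrix.SpecialLinearGroup.coe_mul, Matrix.SpecialLinearGroup.transvection_coe, mul_add,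
    mul_one, Matrix.add_apply]
  split_ifs with h
  · subst h; rw [Matrix.mul_single_apply_same]
  · rw [Matrix.mul_single_apply_of_ne _ _ _ _ _ h]

/-- The rows and columns from `k` on are those of the identity. -/
def Clean (k : ℕ) (g : Matrix.SpecialLinearGroup (Fin n) F[X]) : Prop :=
  ∀ i j : Fin n, i ≠ j → k ≤ (i : ℕ) ∨ k ≤ (j : ℕ) → g i j = 0

lemma Clean.elem_mul {k : ℕ} {g : Matrix.SpecialLinearGroup (Fin n) F[X]} (hg : Clean k g)
    {a b : Fin n} (hab : a ≠ b) (ha : (a : ℕ) < k) (hb : (b : ℕ) < k) (x : F[X]) :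
    Clean k (elem hab x * g) := fun i j hij h => by
  rw [elem_mul_apply, hg i j hij h, zero_add]
  split_ifs with hi
  · subst hi
    have hj : k ≤ (j : ℕ) := h.resolve_left (by omega)
    rw [hg b j (fun e => by subst e; omega) (Or.inr hj), mul_zero]
  · rfl

theorem lowMod_mem_Gam (hn : 3 ≤ n) (g : Matrix.SpecialLinearGroup (Fin n) F[X])
    (hg : LowMod g) : g ∈ Gam F n F[X] X := by
  have hn0 : 0 < n := by omega
  set K := Gam F n F[X] X with hKdef
  suffices ∀ k, k ≤ n → ∀ g ∈ lowModGroup F hn0, Clean k g → g ∈ K from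
    this n le_rfl g ((mem_lowModGroup hn0).2 hg) fun i j _ h => by
      have := i.isLt; have := j.isLt; omega
  intro k
  induction k with
  | zero =>
    intro _ g hg hcl
    suffices g = 1 from this ▸ K.one_mem
    have hdet : ∏ a : Fin n, g a a = 1 := by
      refine (Matrix.det_of_isLowerTriangular g.1 fun i j hij => ?_).symm.trans g.2
      exact hcl i j (ne_of_lt hij) (Or.inl (Nat.zero_le _))
    apply Subtype.ext
    funext a b
    rcases eq_or_ne a b with rfl | hab
    · have hu : IsUnit (g a a) :=
        isUnit_of_dvd_one ((Finset.dvd_prod_of_mem (fun a => g a a) (mem_univ a)).trans hdet.dvd)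
      rw [Matrix.SpecialLinearGroup.coe_one, Matrix.one_apply_eq,
        Polynomial.eq_C_of_degree_eq_zero (Polynomial.degree_eq_zero_of_isUnit hu),
        ((mem_lowModGroup hn0).1 hg).1 a, Polynomial.C_1]
    · rw [hcl a b hab (Or.inl (Nat.zero_le _)), Matrix.SpecialLinearGroup.coe_one,
        Matrix.one_apply_ne hab]
  | succ k ih =>
    intro hk
    set L : Fin n := ⟨k, by omega⟩ with hL
    suffices ∀ D, ∀ g ∈ lowModGroup F hn0, Clean (k + 1) g → (g L L).natDegree = D → g ∈ K from
      fun g hg hcl => this _ g hg hcl rfl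
    intro D
    induction D using Nat.strong_induction_on with
    | _ D ihD =>
    intro g hg hcl hD
    -- make the column short
    have hshort : ∀ S : Finset (Fin n), (∀ a ∈ S, a < L) → ∃ h ∈ K,
        Clean (k + 1) (h * g) ∧ (h * g) L L = g L L ∧
          ∀ a ∈ S, ((h * g) a L).natDegree ≤ D := fun S => by
      induction S using Finset.induction with
      | empty => exact fun _ => ⟨1, K.one_mem, by simpa using hcl⟩
      | @insert a S ha ihS =>
        intro hlt
        obtain ⟨h, hh, hc1, hLL, hS⟩ := ihS fun i hi => hlt i (mem_insert_of_mem hi)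
        have haL : a < L := hlt a (mem_insert_self _ _)
        have haL' : (a : ℕ) < k := Fin.lt_def.1 haL
        have hu := (mem_lowModGroup hn0).1
          ((lowModGroup F hn0).mul_mem (Gam_le_lowModGroup hn0 hh) hg)
        obtain ⟨w, hw⟩ := Polynomial.X_dvd_iff.2 (hu.2 a L haL)
        refine ⟨elem haL.ne (X * (-(w / (h * g) L L))) * h,
          K.mul_mem (elem_X_mul_mem hn _ _) hh, ?_, ?_, ?_⟩
        · rw [mul_assoc]
          exact hc1.elem_mul _ (by omega) (by simp [hL]) _
        · rw [mul_assoc, elem_mul_apply, if_neg haL.ne', add_zero, hLL]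
        · intro i hi
          rw [mul_assoc, elem_mul_apply]
          rcases mem_insert.1 hi with rfl | hi
          · rw [if_pos rfl, hw]
            set v := (h * g) L L with hv
            have e : X * w + X * -(w / v) * v = X * (w % v) := by
              linear_combination (-X) * EuclideanDomain.div_add_mod w v
            rw [e]
            rcases eq_or_ne D 0 with h0 | h0
            · have hv1 : v = 1 := by
                rw [Polynomial.eq_C_of_natDegree_eq_zero (p := v) (by rw [hLL, hD, h0]),
                  hu.1 L, Polynomial.C_1]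
              simp [hv1, EuclideanDomain.mod_one]
            · have hvd : v.natDegree = D := by rw [hLL, hD]
              have hlt' := Polynomial.natDegree_mod_lt w (q := v) (by omega)
              calc (X * (w % v)).natDegree ≤ (X : F[X]).natDegree + (w % v).natDegree :=
                    Polynomial.natDegree_mul_le
                _ ≤ D := by rw [Polynomial.natDegree_X]; omega
          · rw [if_neg (fun e : i = a => ha (e ▸ hi)), add_zero]
            exact hS i hi
    obtain ⟨h, hh, hcl', hLL, hS⟩ := hshort (Finset.Iio L) fun a ha => mem_Iio.1 ha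
    suffices h * g ∈ K by simpa using K.mul_mem (K.inv_mem hh) this
    set g₁ := h * g with hg₁
    have hu₁ : g₁ ∈ lowModGroup F hn0 :=
      (lowModGroup F hn0).mul_mem (Gam_le_lowModGroup hn0 hh) hg
    have hl₁ := (mem_lowModGroup hn0).1 hu₁
    by_cases hne : ∃ a, a < L ∧ g₁ a L ≠ 0
    · -- divide the last entry
      obtain ⟨a, haL, ha⟩ := hne
      have hpos : 0 < (g₁ a L).natDegree := by
        rw [Nat.pos_iff_ne_zero]
        exact fun h0 => ha (by
          rw [Polynomial.eq_C_of_natDegree_eq_zero h0, hl₁.2 a L haL, Polynomial.C_0])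
      have hle := hS a (mem_Iio.2 haL)
      set e := elem haL.ne' (-(g₁ L L / g₁ a L)) with he
      have heK : e ∈ K := elem_lower_mem hn _ haL _
      suffices e * g₁ ∈ K by simpa using K.mul_mem (K.inv_mem heK) this
      refine ihD _ ?_ _ ((lowModGroup F hn0).mul_mem (Gam_le_lowModGroup hn0 heK) hu₁)
        (hcl'.elem_mul _ (by simp [hL]) (by have := Fin.lt_def.1 haL; simp only [hL] at this; omega) _)
        rfl
      rw [elem_mul_apply, if_pos rfl]
      have e' : g₁ L L + -(g₁ L L / g₁ a L) * g₁ a L = g₁ L L % g₁ a L := by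
        linear_combination -(EuclideanDomain.div_add_mod (g₁ L L) (g₁ a L))
      rw [e']
      exact (Polynomial.natDegree_mod_lt _ hpos.ne').trans_le hle
    · -- the column is a unit vector; clear the row
      push Not at hne
      have hcol : ∀ i, i ≠ L → g₁ i L = 0 := fun i hi => by
        rcases hi.lt_or_gt with h' | h'
        · exact hne i h'
        · exact hcl' i L hi (Or.inl (by have := Fin.lt_def.1 h'; simp only [hL] at this; omega))
      have hone : (g₁⁻¹ * g₁) L L = (1 : F[X]) := by
        rw [inv_mul_cancel, Matrix.SpecialLinearGroup.coe_one, Matrix.one_apply_eq]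
      rw [Matrix.SpecialLinearGroup.coe_mul, Matrix.mul_apply,
        sum_eq_single L (fun i _ hi => by rw [hcol i hi, mul_zero]) (by simp)] at hone
      have hvL : g₁ L L = 1 := by
        rw [Polynomial.eq_C_of_degree_eq_zero (Polynomial.degree_eq_zero_of_isUnit
          (isUnit_of_dvd_one ⟨_, hone.symm.trans (mul_comm _ _)⟩)), hl₁.1 L, Polynomial.C_1]
      have hrow : ∀ S : Finset (Fin n), (∀ a ∈ S, a < L) → ∃ r ∈ K,
          Clean (k + 1) (g₁ * r) ∧ (∀ i, (g₁ * r) i L = g₁ i L) ∧
            ∀ a ∈ S, (g₁ * r) L a = 0 := fun S => by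
        induction S using Finset.induction with
        | empty => exact fun _ => ⟨1, K.one_mem, by simpa using hcl'⟩
        | @insert a S ha ihS =>
          intro hlt
          obtain ⟨r, hr, hc1, hcolr, hS'⟩ := ihS fun i hi => hlt i (mem_insert_of_mem hi)
          have haL : a < L := hlt a (mem_insert_self _ _)
          refine ⟨r * elem haL.ne' (-(g₁ * r) L a), K.mul_mem hr (elem_lower_mem hn _ haL _),
            ?_, ?_, ?_⟩
          · intro i j hij h'
            rw [← mul_assoc, mul_elem_apply, hc1 i j hij h', zero_add]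
            split_ifs with hj
            · subst hj
              have hi : k + 1 ≤ (i : ℕ) :=
                h'.resolve_right (by have := Fin.lt_def.1 haL; simp only [hL] at this; omega)
              rw [hc1 i L (fun e => by subst e; simp [hL] at hi) (Or.inl hi), zero_mul]
            · rfl
          · intro i
            rw [← mul_assoc, mul_elem_apply, if_neg haL.ne', add_zero, hcolr]
          · intro i hi
            rw [← mul_assoc, mul_elem_apply]
            rcases mem_insert.1 hi with rfl | hi
            · rw [if_pos rfl, hcolr L, hvL, one_mul, add_neg_cancel]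
            · rw [if_neg (fun e : i = a => ha (e ▸ hi)), add_zero]
              exact hS' i hi
      obtain ⟨r, hr, hc2, hcolr, hrS⟩ := hrow (Finset.Iio L) fun a ha => mem_Iio.1 ha
      suffices g₁ * r ∈ K by simpa using K.mul_mem this (K.inv_mem hr)
      refine ih (by omega) _ ((lowModGroup F hn0).mul_mem hu₁ (Gam_le_lowModGroup hn0 hr))
        fun i j hij h' => ?_
      by_cases hbig : k + 1 ≤ (i : ℕ) ∨ k + 1 ≤ (j : ℕ)
      · exact hc2 i j hij hbig
      · rw [not_or, not_le, not_le] at hbig
        rcases h' with h' | h'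
        · obtain rfl : i = L := Fin.ext (by simp only [hL]; omega)
          exact hrS j (mem_Iio.2 (Fin.lt_def.2 (by
            have := Fin.val_ne_of_ne hij; simp only [hL] at this ⊢; omega)))
        · obtain rfl : j = L := Fin.ext (by simp only [hL]; omega)
          rw [hcolr]
          exact hcol i hij

/-- `Γ` over `F[t]` is the group of matrices that are lower unitriangular mod `t`. -/
theorem mem_Gam_poly_iff (hn : 3 ≤ n) (g : Matrix.SpecialLinearGroup (Fin n) F[X]) :
    g ∈ Gam F n F[X] X ↔ LowMod g :=
  ⟨fun h => (mem_lowModGroup (by omega)).1 (Gam_le_lowModGroup (by omega) h),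
    lowMod_mem_Gam hn g⟩

theorem gamEqStmt : GamEqStmt := fun _ hn _ _ g => mem_Gam_poly_iff hn g

/-- The elements of `Gam` over any algebra lift to `Γ` over `F[t]`. -/
theorem exists_lift_of_mem_Gam {R : Type} [CommRing R] [Algebra F R] {t : R}
    {x : Matrix.SpecialLinearGroup (Fin n) R} (hx : x ∈ Gam F n R t) :
    ∃ g ∈ Gam F n F[X] X,
      Matrix.SpecialLinearGroup.map (Polynomial.aeval t : F[X] →ₐ[F] R).toRingHom g = x :=
  Subgroup.mem_map.1 ((map_Gam (Polynomial.aeval t : F[X] →ₐ[F] R) (Polynomial.aeval_X t)).symm ▸ hx)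

end Vale.Agent.P067.Alld
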