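import Vale.Agent.P067.Alld.A.GamEq

/-!
P067, module A: the quotient maps `Γ → Γ / N_m` and their injectivity on the pattern groups.
-/

namespace Vale.Agent.P067.Alld

open Finset Matrix Polynomial

section Map

variable {F : Type} [Field F] {n : ℕ} {R R' : Type} [CommRing R] [Algebra F R] [CommRing R']
  [Algebra F R'] {t : R} {t' : R'} {E : Finset (Fin n)}

/-- The map of `Gam` groups along an algebra map. -/
def gamMap (φ : R →ₐ[F] R') (h : φ t = t') : Gam F n R t →* Gam F n R' t' :=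
  ((Matrix.SpecialLinearGroup.map φ.toRingHom).comp (Gam F n R t).subtype).codRestrict _
    fun g => (map_Gam φ h).le (Subgroup.mem_map_of_mem _ g.2)

@[simp] lemma gamMap_coe (φ : R →ₐ[F] R') (h : φ t = t') (g : Gam F n R t) :
    (gamMap φ h g).1 = Matrix.SpecialLinearGroup.map φ.toRingHom g.1 := rfl

lemma gamMap_surjective (φ : R →ₐ[F] R') (h : φ t = t') :
    Function.Surjective (gamMap (n := n) φ h) := fun x => by
  obtain ⟨g, hg, hgx⟩ := Subgroup.mem_map.1 ((map_Gam φ h).ge x.2)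
  exact ⟨⟨g, hg⟩, Subtype.ext hgx⟩

/-- The map carries intersections of types onto intersections. -/
theorem map_inter_hyp (φ : R →ₐ[F] R') (h : φ t = t') (ht' : t' ≠ 0) (hE : E.Nonempty) :
    (inter (hyp F n R t) E).map (gamMap φ h) = inter (hyp F n R' t') E := by
  have ht : t ≠ 0 := fun e => ht' (by rw [← h, e, map_zero])
  ext x
  rw [Subgroup.mem_map, mem_inter_hyp_iff ht' hE]
  constructor
  · rintro ⟨g, hg, rfl⟩
    obtain ⟨c, hc, hgc⟩ := (mem_inter_hyp_iff ht hE g).1 hg
    exact ⟨c, hc, (congrArg (fun M => M.map φ) hgc).trans ((patMat_map φ c).trans (by rw [h]))⟩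
  · rintro ⟨c, hc, hx⟩
    exact ⟨⟨hc.toSL R t hE, hc.toSL_mem_Gam hE⟩, (mem_inter_hyp_iff ht hE _).2 ⟨c, hc, rfl⟩,
      Subtype.ext (Subtype.ext (((patMat_map φ c).trans (by rw [h])).trans hx.symm))⟩

/-- The map is injective on each intersection of types. -/
theorem gamMap_injOn (φ : R →ₐ[F] R') (h : φ t = t') (ht' : t' ≠ 0) (hE : E.Nonempty) :
    Set.InjOn (gamMap φ h) (inter (hyp F n R t) E : Set (Gam F n R t)) := fun x hx y hy e => by
  have ht : t ≠ 0 := fun e => ht' (by rw [← h, e, map_zero])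
  obtain ⟨c, -, hxc⟩ := (mem_inter_hyp_iff ht hE x).1 hx
  obtain ⟨d, -, hyd⟩ := (mem_inter_hyp_iff ht hE y).1 hy
  have e' : x.1.1.map φ = y.1.1.map φ := congrArg (fun g : Gam F n R' t' => g.1.1) e
  rw [hxc, hyd, patMat_map, patMat_map, h] at e'
  exact Subtype.ext (Subtype.ext (by rw [hxc, hyd, patMat_inj ht' e']))

end Map

variable (p n m : ℕ) [Fact p.Prime]

/-- Reduction mod `t ^ m`. -/
noncomputable def redm : Polynomial (ZMod p) →ₐ[ZMod p] Rm p m :=
  AdjoinRoot.mkₐ _

lemma redm_X : redm p m X = tm p m := rfl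

lemma tm_ne_zero {m : ℕ} (hm : 2 ≤ m) : tm p m ≠ 0 := fun h => by
  have : (X : Polynomial (ZMod p)) ^ m ∣ X := AdjoinRoot.mk_eq_zero.1 h
  have h' := Polynomial.natDegree_le_of_dvd this Polynomial.X_ne_zero
  rw [Polynomial.natDegree_X_pow, Polynomial.natDegree_X] at h'
  omega

/-- The quotient map `Γ → Γ / N_m`. -/
noncomputable def toGm : GamInf p n →* Gm p n m := gamMap (redm p m) (redm_X p m)

lemma toGm_surjective : Function.Surjective (toGm p n m) := gamMap_surjective _ _

/-- The kernel of `toGm`: congruence to the identity mod `t ^ m`. -/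
lemma toGm_eq_one_iff (g : GamInf p n) :
    toGm p n m g = 1 ↔ ∀ a b,
      (X : Polynomial (ZMod p)) ^ m ∣ g.1 a b - (1 : Matrix (Fin n) (Fin n) (Polynomial (ZMod p))) a b := by
  refine Subtype.ext_iff.trans (Subtype.ext_iff.trans (Matrix.ext_iff.symm.trans ?_))
  refine forall₂_congr fun a b => ?_
  rw [← AdjoinRoot.mk_eq_zero, map_sub, sub_eq_zero]
  have e : AdjoinRoot.mk ((X : Polynomial (ZMod p)) ^ m)
      ((1 : Matrix (Fin n) (Fin n) (Polynomial (ZMod p))) a b) =
        (1 : Matrix (Fin n) (Fin n) (Rm p m)) a b := by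
    rcases eq_or_ne a b with rfl | h
    · simp
    · simp [h]
  rw [e]
  rfl

end Vale.Agent.P067.Alld
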