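import Vale.Agent.P067.Alld.A.Basic

/-!
P067, module A: root elements, generation of the pattern groups by the simple root elements and
generation of the coset complex.
-/

namespace Vale.Agent.P067.Alld

open Finset Matrix

variable {F : Type} [Field F] {n : ℕ} {R : Type} [CommRing R] [Algebra F R] {t : R}
variable {E : Finset (Fin n)} {a b k l : Fin n}

/-- An elementary matrix in `SL`. -/
abbrev elem (h : a ≠ b) (x : R) : Matrix.SpecialLinearGroup (Fin n) R :=
  Matrix.SpecialLinearGroup.transvection h x

lemma elem_coe (h : a ≠ b) (x : R) : (elem h x).1 = 1 + Matrix.single a b x := rfl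

lemma elem_add (h : a ≠ b) (x y : R) : elem h (x + y) = elem h x * elem h y :=
  Subtype.ext (by
    simp only [Matrix.SpecialLinearGroup.coe_mul, Matrix.SpecialLinearGroup.transvection_coe,
      mul_add, add_mul, mul_one, one_mul, Matrix.single_mul_single_of_ne _ _ _ _ h.symm,
      Matrix.single_add, add_zero]
    abel)

lemma elem_comm (h₁ : a ≠ k) (h₂ : k ≠ b) (h₃ : a ≠ b) (x y : R) :
    elem h₁ x * elem h₂ y * (elem h₁ x)⁻¹ * (elem h₂ y)⁻¹ = elem h₃ (x * y) := by
  apply Subtype.ext
  simp only [elem, Matrix.SpecialLinearGroup.transvection_inv, Matrix.SpecialLinearGroup.coe_mul,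
    Matrix.SpecialLinearGroup.transvection_coe, mul_add, add_mul, mul_one, one_mul,
    Matrix.single_mul_single_of_ne _ _ _ _ h₁.symm, Matrix.single_mul_single_of_ne _ _ _ _ h₂.symm,
    Matrix.single_mul_single_of_ne _ _ _ _ h₃.symm, Matrix.single_mul_single_same,
    add_zero, ← Matrix.single_neg, mul_neg, neg_mul]
  abel

/-- The root element with coefficient `c` at the entry `(a, b)` in the normalisation of `patMat`. -/
def relem (F : Type) [Field F] [Algebra F R] (t : R) (h : a ≠ b) (c : F) :
    Matrix.SpecialLinearGroup (Fin n) R :=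
  elem h (algebraMap F R c * t ^ wrap a b)

/-- The cyclic successor. -/
def succC (a : Fin n) : Fin n := ⟨((a : ℕ) + 1) % n, Nat.mod_lt _ (by have := a.isLt; omega)⟩

lemma succC_val (a : Fin n) : (succC a : ℕ) = if (a : ℕ) + 1 = n then 0 else (a : ℕ) + 1 := by
  have := a.isLt
  simp only [succC]
  split_ifs with h
  · rw [h, Nat.mod_self]
  · exact Nat.mod_eq_of_lt (by omega)

lemma succC_ne (hn : 2 ≤ n) (a : Fin n) : succC a ≠ a := fun h => by
  have := congrArg Fin.val h
  rw [succC_val] at this
  split_ifs at this <;> omega

lemma rot_succC (h : a ≠ l) : (rot l (succC a) : ℕ) = (rot l a : ℕ) + 1 := by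
  rw [rot_val, rot_val, succC_val]
  have := a.isLt; have := l.isLt; have := Fin.val_ne_of_ne h
  split_ifs <;> omega

lemma rot_self (l : Fin n) : (rot l l : ℕ) = n - 1 := by
  rw [rot_val, if_pos le_rfl]
  have := l.isLt
  omega

lemma Below.notMem (h : Below E b a) : b ∉ E := fun hb => by
  have := Fin.lt_def.1 (h b hb)
  rw [rot_self] at this
  have := (rot b a).isLt
  omega

/-- The simple root element at `(a + 1, a)`. -/
def sroot (F : Type) [Field F] [Algebra F R] (t : R) (hn : 2 ≤ n) (a : Fin n) (c : F) :
    Matrix.SpecialLinearGroup (Fin n) R :=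
  relem F t (succC_ne hn a) c

lemma below_succC (ha : a ∉ E) : Below E a (succC a) := fun l hl => by
  rw [Fin.lt_def, rot_succC fun h : a = l => ha (h ▸ hl)]
  omega

lemma pat_one_add_single (hab : a ≠ b) (h : Below E b a) (x : F) :
    Pat E (1 + Matrix.single a b x) := by
  refine ⟨fun i => ?_, fun i j hij hb => ?_⟩
  · rw [Matrix.add_apply, Matrix.one_apply_eq, Matrix.single_apply_of_ne, add_zero]
    rintro ⟨rfl, rfl⟩
    exact hab rfl
  · rw [Matrix.add_apply, Matrix.one_apply_ne hij, Matrix.single_apply_of_ne, add_zero]
    rintro ⟨rfl, rfl⟩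
    exact hb h

lemma relem_coe (hab : a ≠ b) (x : F) :
    (relem F t hab x).1 = patMat R t (1 + Matrix.single a b x) := by
  funext i j
  simp only [relem, elem_coe, patMat, Matrix.add_apply, map_add, add_mul]
  rcases eq_or_ne i j with rfl | hij
  · rw [Matrix.one_apply_eq, Matrix.one_apply_eq,
      Matrix.single_apply_of_ne (h := fun h => hab (h.1.trans h.2.symm)),
      Matrix.single_apply_of_ne (h := fun h => hab (h.1.trans h.2.symm))]
    simp [wrap]
  · rw [Matrix.one_apply_ne hij, Matrix.one_apply_ne hij]
    by_cases h : a = i ∧ b = j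
    · obtain ⟨rfl, rfl⟩ := h
      simp [Matrix.single_apply_same]
    · simp [Matrix.single_apply_of_ne (h := h)]

lemma relem_mem_patGroup (hE : E.Nonempty) (hab : a ≠ b) (h : Below E b a) (x : F) :
    relem F t hab x ∈ patGroup F R t E hE :=
  ⟨_, pat_one_add_single hab h x, relem_coe hab x⟩

lemma sroot_mem_loc (hn : 2 ≤ n) (h : a ≠ l) (c : F) : sroot F t hn a c ∈ loc F R t l := by
  rw [loc_eq_patGroup]
  exact relem_mem_patGroup _ _ (below_succC (by simpa using h)) c

lemma sroot_mem_Gam (hn : 2 ≤ n) (a : Fin n) (c : F) : sroot F t hn a c ∈ Gam F n R t :=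
  loc_le_Gam (succC a) (sroot_mem_loc hn (succC_ne hn a).symm c)

/-- Root elements below `E` come from simple ones outside `E`. -/
lemma relem_mem_of_simple (hn : 2 ≤ n) (hE : E.Nonempty)
    {K : Subgroup (Matrix.SpecialLinearGroup (Fin n) R)}
    (hK : ∀ a ∉ E, ∀ c : F, sroot F t hn a c ∈ K) :
    ∀ (a b : Fin n) (hab : a ≠ b), Below E b a → ∀ c : F, relem F t hab c ∈ K := by
  obtain ⟨l, hl⟩ := id hE
  suffices ∀ (m : ℕ) (a b : Fin n) (hab : a ≠ b), Below E b a →
      (rot l a : ℕ) - rot l b = m → ∀ c : F, relem F t hab c ∈ K from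
    fun a b hab h => this _ a b hab h rfl
  intro m
  induction m using Nat.strong_induction_on with
  | _ m ih =>
    intro a b hab h hm c
    have hb : b ∉ E := h.notMem
    rcases eq_or_ne a (succC b) with rfl | hne
    · exact hK b hb c
    · have hk : Below E b (succC b) := below_succC hb
      have hka : Below E (succC b) a := fun l' hl' => by
        have h1 := Fin.lt_def.1 (h l' hl')
        have h2 := Fin.val_ne_of_ne ((rot_injective l').ne hne)
        rw [Fin.lt_def]
        rw [rot_succC fun e : b = l' => hb (e ▸ hl')] at h2 ⊢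
        omega
      have hbl : b ≠ l := fun e => hb (e ▸ hl)
      have h1 := Fin.lt_def.1 (hka l hl)
      rw [rot_succC hbl] at h1
      have e := elem_comm hne (succC_ne hn b) hab (algebraMap F R c * t ^ wrap a (succC b))
        (algebraMap F R 1 * t ^ wrap (succC b) b)
      have hw : wrap a (succC b) + wrap (succC b) b = wrap a b :=
        wrap_add (l := l) (hk l hl).le (hka l hl).le
      have hr : relem F t hab c = elem hab (algebraMap F R c * t ^ wrap a (succC b) *
          (algebraMap F R 1 * t ^ wrap (succC b) b)) := by
        rw [relem, map_one, one_mul, mul_assoc, ← pow_add, hw]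
      rw [hr, ← e]
      have h2 : elem hne (algebraMap F R c * t ^ wrap a (succC b)) ∈ K :=
        ih _ (by rw [rot_succC hbl]; omega) a (succC b) hne hka rfl c
      have h3 : elem (succC_ne hn b) (algebraMap F R 1 * t ^ wrap (succC b) b) ∈ K := hK b hb 1
      exact K.mul_mem (K.mul_mem (K.mul_mem h2 h3) (K.inv_mem h2)) (K.inv_mem h3)

/-- A pattern group is generated by the simple root elements outside its types. -/
theorem patGroup_le_of_simple (hn : 2 ≤ n) (hE : E.Nonempty)
    {K : Subgroup (Matrix.SpecialLinearGroup (Fin n) R)}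
    (hK : ∀ a ∉ E, ∀ c : F, sroot F t hn a c ∈ K) : patGroup F R t E hE ≤ K := by
  classical
  let S : Matrix (Fin n) (Fin n) F → Prop :=
    fun c => ∀ g : Matrix.SpecialLinearGroup (Fin n) R, g.1 = patMat R t c → g ∈ K
  have hmul : ∀ c d, Pat E c → Pat E d → S c → S d → S (c * d) := fun c d hc hd h1 h2 g hg => by
    have : g = hc.toSL R t hE * hd.toSL R t hE :=
      Subtype.ext (hg.trans (hc.patMat_mul hE hd).symm)
    exact this ▸ K.mul_mem (h1 _ rfl) (h2 _ rfl)
  have hone : S 1 := fun g hg => by
    rw [show g = 1 from Subtype.ext (hg.trans patMat_one)]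
    exact K.one_mem
  have htr : ∀ a b, a ≠ b → Below E b a → ∀ x : F, S (1 + Matrix.single a b x) :=
    fun a b hab h x g hg => by
      rw [show g = relem F t hab x from Subtype.ext (hg.trans (relem_coe hab x).symm)]
      exact relem_mem_of_simple hn hE hK a b hab h x
  have hrow : ∀ (a : Fin n) (v : Fin n → F) (T : Finset (Fin n)),
      (∀ j ∈ T, a ≠ j) → (∀ j ∈ T, v j ≠ 0 → Below E j a) →
        Pat E (1 + ∑ j ∈ T, Matrix.single a j (v j)) ∧
          S (1 + ∑ j ∈ T, Matrix.single a j (v j)) := fun a v T => by
    induction T using Finset.induction with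
    | empty => exact fun _ _ => by simpa using And.intro Pat.one hone
    | @insert j T hj ih =>
      intro hne hb
      obtain ⟨hp, hs⟩ := ih (fun i hi => hne i (mem_insert_of_mem hi))
        fun i hi => hb i (mem_insert_of_mem hi)
      rcases eq_or_ne (v j) 0 with h0 | h0
      · rw [sum_insert hj, h0, Matrix.single_zero, zero_add]
        exact ⟨hp, hs⟩
      · have hj1 := hne j (mem_insert_self _ _)
        have hj2 := hb j (mem_insert_self _ _) h0
        have hz : (∑ i ∈ T, Matrix.single a i (v i)) * Matrix.single a j (v j) = 0 := by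
          rw [Finset.sum_mul]
          exact sum_eq_zero fun i hi =>
            Matrix.single_mul_single_of_ne _ _ _ _ (hne i (mem_insert_of_mem hi)).symm _
        have e : (1 + ∑ i ∈ insert j T, Matrix.single a i (v i)) =
            (1 + ∑ i ∈ T, Matrix.single a i (v i)) * (1 + Matrix.single a j (v j)) := by
          rw [sum_insert hj, mul_add, mul_one, add_mul, one_mul, hz, add_zero]
          abel
        rw [e]
        exact ⟨hp.mul hE (pat_one_add_single hj1 hj2 _),
          hmul _ _ hp (pat_one_add_single hj1 hj2 _) hs (htr a j hj1 hj2 _)⟩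
  obtain ⟨l, hl⟩ := id hE
  have hmain : ∀ (s : Finset (Fin n)) (c : Matrix (Fin n) (Fin n) F), Pat E c →
      (∀ i ∉ s, ∀ j, i ≠ j → c i j = 0) → S c := fun s => by
    induction s using Finset.strongInduction with
    | _ s ih =>
      intro c hc hs
      rcases s.eq_empty_or_nonempty with rfl | hne
      · have : c = 1 := by
          funext i j
          rcases eq_or_ne i j with rfl | h
          · rw [hc.1, Matrix.one_apply_eq]
          · rw [hs i (notMem_empty _) j h, Matrix.one_apply_ne h]
        exact this ▸ hone
      · obtain ⟨a, ha, hmax⟩ := exists_max_image s (rot l) hne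
        set c' : Matrix (Fin n) (Fin n) F :=
          fun i j => if i = a then (1 : Matrix (Fin n) (Fin n) F) i j else c i j with hc'def
        have hc' : Pat E c' := ⟨fun i => by simp only [hc'def]; split_ifs <;> simp [hc.1],
          fun i j hij hb => by
            simp only [hc'def]; split_ifs <;> simp [Matrix.one_apply_ne hij, hc.2 i j hij hb]⟩
        have hcol : ∀ i, c' i a = if i = a then 1 else 0 := fun i => by
          by_cases hi : i = a
          · subst hi; simp [hc'def]
          · simp only [hc'def, if_neg hi]
            by_contra h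
            rcases hc.eq_or_below h with e | e
            · exact hi e
            · exact h (hs i (fun his => (e l hl).not_ge (hmax i his)) a hi)
        have h1 : S c' := ih (s.erase a) (erase_ssubset ha) c' hc' fun i hi j hij => by
          simp only [hc'def]
          split_ifs with h
          · exact Matrix.one_apply_ne hij
          · exact hs i (fun h' => hi (mem_erase.2 ⟨h, h'⟩)) j hij
        obtain ⟨hp, hs'⟩ := hrow a (c a) (univ.erase a) (fun j hj => (ne_of_mem_erase hj).symm)
          fun j hj h => (hc.eq_or_below h).resolve_left (ne_of_mem_erase hj).symm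
        have e : c = c' * (1 + ∑ j ∈ univ.erase a, Matrix.single a j (c a j)) := by
          funext i j
          rw [mul_add, mul_one, Finset.mul_sum, Matrix.add_apply, Matrix.sum_apply]
          by_cases hi : i = a
          · subst hi
            rcases eq_or_ne j i with rfl | hj
            · rw [sum_eq_zero, add_zero, hc'.1, hc.1]
              intro k hk
              exact Matrix.mul_single_apply_of_ne _ _ _ _ _ (ne_of_mem_erase hk).symm _
            · rw [sum_eq_single_of_mem j (mem_erase.2 ⟨hj, mem_univ _⟩),
                Matrix.mul_single_apply_same, hcol, if_pos rfl, one_mul]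
              · simp [hc'def, Matrix.one_apply_ne hj.symm]
              · intro k _ hk
                exact Matrix.mul_single_apply_of_ne _ _ _ _ _ hk.symm _
          · rw [sum_eq_zero, add_zero]
            · simp [hc'def, hi]
            · intro k _
              rcases eq_or_ne j k with rfl | hk
              · rw [Matrix.mul_single_apply_same, hcol, if_neg hi, zero_mul]
              · exact Matrix.mul_single_apply_of_ne _ _ _ _ _ hk _
        rw [e]
        exact hmul _ _ hc' hp h1 hs'
  rintro g ⟨c, hc, hg⟩
  exact hmain univ c hc (fun i hi => absurd (mem_univ i) hi) g hg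

lemma loc_le_of_simple (hn : 2 ≤ n) (l : Fin n)
    {K : Subgroup (Matrix.SpecialLinearGroup (Fin n) R)}
    (hK : ∀ a ≠ l, ∀ c : F, sroot F t hn a c ∈ K) : loc F R t l ≤ K := by
  rw [loc_eq_patGroup]
  exact patGroup_le_of_simple hn _ fun a ha => hK a (by simpa using ha)

/-- All of `Gam` is generated by the simple root elements. -/
lemma Gam_le_of_simple (hn : 2 ≤ n) {K : Subgroup (Matrix.SpecialLinearGroup (Fin n) R)}
    (hK : ∀ a, ∀ c : F, sroot F t hn a c ∈ K) : Gam F n R t ≤ K :=
  iSup_le fun l => loc_le_of_simple hn l fun a _ => hK a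

/-- Two subgroups one type apart generate the group of their common types. -/
theorem generated_hyp (ht : t ≠ 0) : Generated (hyp F n R t) := by
  intro E y z hy hz hyz
  refine le_antisymm (sup_le ?_ ?_) ?_
  · exact fun x hx => mem_inter.2 fun l hl => mem_inter.1 hx l (mem_insert_of_mem hl)
  · exact fun x hx => mem_inter.2 fun l hl => mem_inter.1 hx l (mem_insert_of_mem hl)
  have hn : 2 ≤ n := by
    have := y.isLt; have := z.isLt; have := Fin.val_ne_of_ne hyz
    omega
  set K := inter (hyp F n R t) (insert y E) ⊔ inter (hyp F n R t) (insert z E) with hKdef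
  have hs : ∀ a ∉ E, ∀ c : F, sroot F t hn a c ∈ K.map (Gam F n R t).subtype := by
    intro a ha c
    refine ⟨⟨_, sroot_mem_Gam hn a c⟩, ?_, rfl⟩
    rcases eq_or_ne a y with rfl | hay
    · refine Subgroup.mem_sup_right (mem_inter.2 fun l hl => sroot_mem_loc hn ?_ c)
      rintro rfl
      exact (mem_insert.1 hl).elim hyz ha
    · refine Subgroup.mem_sup_left (mem_inter.2 fun l hl => sroot_mem_loc hn ?_ c)
      rintro rfl
      exact (mem_insert.1 hl).elim hay ha
  intro x hx
  have hx' : (x : Matrix.SpecialLinearGroup (Fin n) R) ∈ K.map (Gam F n R t).subtype := by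
    rcases E.eq_empty_or_nonempty with rfl | hE
    · exact Gam_le_of_simple hn (fun a => hs a (notMem_empty a)) x.2
    · exact patGroup_le_of_simple hn hE hs ((mem_inter_hyp_iff ht hE x).1 hx)
  obtain ⟨w, hw, hwx⟩ := hx'
  rwa [← Subtype.ext hwx]

/-- `(a, b, e)` with `b < a` or `1 ≤ e` are the roots of `Gam`. -/
theorem elem_mem_Gam (hn : 3 ≤ n) (hab : a ≠ b) (e : ℕ) (he : b < a ∨ 1 ≤ e) (c : F) :
    elem hab (algebraMap F R c * t ^ e) ∈ Gam F n R t := by
  suffices ∀ (L : ℕ) (a b : Fin n) (hab : a ≠ b) (e : ℕ), (a : ℕ) + e * n = b + L → ∀ c : F,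
      elem hab (algebraMap F R c * t ^ e) ∈ Gam F n R t by
    refine this ((a : ℕ) + e * n - b) a b hab e ?_ c
    have := b.isLt
    rcases he with h | h
    · have := Fin.lt_def.1 h; omega
    · have : n ≤ e * n := Nat.le_mul_of_pos_left n h
      omega
  intro L
  induction L using Nat.strong_induction_on with
  | _ L ih =>
    intro a b hab e hL c
    have hn2 : 2 ≤ n := by omega
    have hK : ∀ (k : Fin n), k ≠ a → k ≠ b → ∀ (e₁ e₂ L₁ : ℕ), L₁ < L → L - L₁ < L →
        (k : ℕ) + e₂ * n = b + L₁ → e = e₁ + e₂ →
        elem hab (algebraMap F R c * t ^ e) ∈ Gam F n R t := by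
      intro k hka hkb e₁ e₂ L₁ h1 h2 h3 he
      have m1 := ih _ h2 a k hka.symm e₁ (by subst he; rw [Nat.add_mul] at hL; omega) c
      have m2 := ih _ h1 k b hkb e₂ h3 1
      have e' := elem_comm hka.symm hkb hab (algebraMap F R c * t ^ e₁) (algebraMap F R 1 * t ^ e₂)
      have hr : algebraMap F R c * t ^ e =
          algebraMap F R c * t ^ e₁ * (algebraMap F R 1 * t ^ e₂) := by
        rw [map_one, one_mul, mul_assoc, ← pow_add, he]
      rw [hr, ← e']
      exact (Gam F n R t).mul_mem ((Gam F n R t).mul_mem ((Gam F n R t).mul_mem m1 m2)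
        ((Gam F n R t).inv_mem m1)) ((Gam F n R t).inv_mem m2)
    have := a.isLt; have := b.isLt
    have habv := Fin.val_ne_of_ne hab
    have hL0 : L ≠ 0 := by
      rintro rfl
      rcases Nat.eq_zero_or_pos e with h | h
      · subst h; omega
      · have := Nat.le_mul_of_pos_left n h; omega
    rcases Nat.lt_or_ge 1 L with hL1 | hL1
    · by_cases hk : succC b = a
      · -- step over two simple roots instead of one
        have hk2a : succC (succC b) ≠ a := by rw [hk]; exact succC_ne hn2 a
        have hk2b : succC (succC b) ≠ b := fun h => by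
          have := congrArg Fin.val h
          rw [succC_val, succC_val] at this
          split_ifs at this <;> omega
        have hk2 : (succC (succC b) : ℕ) + (if (b : ℕ) + 2 < n then 0 else 1) * n = b + 2 := by
          rw [succC_val, succC_val]; split_ifs <;> omega
        have hav : (a : ℕ) = if (b : ℕ) + 1 = n then 0 else (b : ℕ) + 1 := by
          rw [← hk, succC_val]
        have hL2 : 2 < L := by
          by_contra h
          have hL2 : L = 2 := by omega
          rcases e with _ | _ | e
          · split_ifs at hav <;> omega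
          · split_ifs at hav <;> omega
          · rw [Nat.add_mul, Nat.add_mul] at hL; omega
        have he1 : (if (b : ℕ) + 2 < n then 0 else 1) ≤ e := by
          split_ifs with h
          · omega
          · by_contra h'
            have : e = 0 := by omega
            subst this
            split_ifs at hav <;> omega
        exact hK _ hk2a hk2b (e - if (b : ℕ) + 2 < n then 0 else 1) _ 2 hL2 (by omega) hk2
          (by omega)
      · have hk1 : (succC b : ℕ) + wrap (succC b) b * n = b + 1 := by
          simp only [wrap, Fin.lt_def, succC_val]; split_ifs <;> omega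
        have he1 : wrap (succC b) b ≤ e := by
          rcases Nat.eq_zero_or_pos e with h | h
          · subst h
            simp only [wrap, Fin.lt_def, succC_val]
            split_ifs <;> omega
          · simp only [wrap]; split_ifs <;> omega
        exact hK _ hk (succC_ne hn2 b) (e - wrap (succC b) b) _ 1 hL1 (by omega) hk1 (by omega)
    · have hL' : L = 1 := by omega
      subst hL'
      have he2 : e ≤ 1 := by
        by_contra h
        have : 2 * n ≤ e * n := Nat.mul_le_mul_right n (by omega)
        omega
      have ha : a = succC b := Fin.ext (by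
        rw [succC_val]
        interval_cases e <;> split_ifs <;> omega)
      subst ha
      have hew : e = wrap (succC b) b := by
        simp only [wrap, Fin.lt_def, succC_val] at hL ⊢
        interval_cases e <;> split_ifs at hL ⊢ <;> omega
      subst hew
      exact sroot_mem_Gam hn2 b c

end Vale.Agent.P067.Alld
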